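import Vale.Agent.P088.R2.H724.B1.Fam
import Vale.Agent.P088.R2.H696.B1.Pt
import Vale.Agent.P088.R2.H591.B1.Mat

/-!
# P088, zone B1: the numerical conditions of the cells

`Nb n q A η` of helper724: `(κ + r) μ ≤ η`, `κ (N + μ) ≤ η`, `1 ≤ η (N + μ)` on every cell, where
`κ = ε / R + κ'` on a cell which meets the ball `|x| ≤ 2 R` (there `N ≤ C M₀` and `m ≤ C R`),
`κ = κ'` elsewhere, `κ' = min (1/2) e^(-2 l(p₀)) ≤ C(A) / E`.
-/

open Finset Set Filter
open scoped ContDiff Topology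

noncomputable section

namespace Vale.Agent.P088.R2.H960.B1

open Vale.Agent.P088.LR Vale.Agent.P088.HY
open Vale.Agent.P088.R2.H31.EP
open Vale.Agent.P088.R2.H464.Cu (mid)
open Vale.Agent.P088.R2.H961.F (CD T_e T_qq)
open Vale.Agent.P088.R2.H238.C
open Vale.Agent.P088.R2.H516.B (mu)
open Vale.Agent.P088.R2.H724.B1 (Fro Zk Cub Flat kq Nb ff)
open Vale.Agent.P088.R2.H696.B1 (TB pB vB)
open Vale.Agent.P088.R2.H591.B1 (Fm)

variable {n : ℕ} {q : Cst} {d : Pk n} {A η : Cst → ℝ}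

/-- The smallness for helper696's numbers. -/
def eN (η : Cst → ℝ) (q : Cst) : ℝ := min 1 (η q) / 2

/-- The conditions on the constants. -/
structure TN (n : ℕ) (A η : Cst → ℝ) (q : Cst) : Prop where
  tb : TB n (eN η) q
  η0 : 0 < η q
  A1 : 1 ≤ A q
  M : 4 * Real.exp (2 + 4 * n * A q) ≤ η q * q.M₀
  ε : q.ε * (N₁ q + 1 + 6 * q.Λ * (q.CB / q.σ)) ≤ η q / 4
  R : 101 * (n * (3 * A q + 1)) + 15 ≤ q.R

theorem nbM_of_ηc {α : Type*} {f : Cst → α} (h : NB_ηc f) : NB_M₀ f := fun q => by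
  have h1 := h q.b_M₀
  have h2 := h q
  rw [← h1, ← h2]
  rfl

theorem nbR_of_ηc {α : Type*} {f : Cst → α} (h : NB_ηc f) : NB_R f := fun q => by
  have h1 := h q.b_R
  have h2 := h q
  rw [← h1, ← h2]
  rfl

theorem nbR_of_M {α : Type*} {f : Cst → α} (h : NB_M₀ f) : NB_R f := fun q => by
  have h1 := h q.b_R
  have h2 := h q
  rw [← h1, ← h2]
  rfl

theorem nbε_of_M {α : Type*} {f : Cst → α} (h : NB_M₀ f) : NB_ε f := fun q => by
  have h1 := h q.b_ε
  have h2 := h q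
  rw [← h1, ← h2]
  rfl

theorem TN.ev (n : ℕ) (hA : NB_M₀ A) (hη : NB_M₀ η) (h : EvC fun q => 0 < η q ∧ 1 ≤ A q) :
    EvC (TN n A η) := by
  have hη' : NB_ε η := nbε_of_M hη
  have hA' : NB_R A := nbR_of_M hA
  have he : NB_M₀ (eN η) := fun q => by
    unfold eN
    rw [hη q]
  have h0 : EvC fun q => 0 < eN η q ∧ eN η q ≤ 1 := h.mono fun q hq => by
    have h1 : 0 < min 1 (η q) := lt_min one_pos hq.1
    have h2 : min 1 (η q) ≤ 1 := min_le_left _ _
    unfold eN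
    constructor <;> linarith
  have h1 : EvC fun q => 0 < η q → 4 * Real.exp (2 + 4 * n * A q) ≤ η q * q.M₀ := by
    refine (EvC.at_M₀ (fun q t => 0 < η q → 4 * Real.exp (2 + 4 * n * A q) ≤ η q * t)
      fun q => ?_).mono fun q hq => ?_
    · by_cases h : 0 < η q
      · filter_upwards [eventually_ge_atTop (4 * Real.exp (2 + 4 * n * A q) / η q)] with t ht _
        rw [div_le_iff₀ h] at ht
        linarith
      · exact Eventually.of_forall fun _ h' => absurd h' h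
    · have e : η q.b_M₀ = η q := hη q
      have e2 : A q.b_M₀ = A q := hA q
      rw [e, e2] at hq
      exact hq
  have h2 : EvC fun q => 0 < η q → q.ε * (N₁ q + 1 + 6 * q.Λ * (q.CB / q.σ)) ≤ η q / 4 := by
    refine (EvC.at_ε (fun q t => 0 < η q → t * (N₁ q + 1 + 6 * q.Λ * (q.CB / q.σ)) ≤ η q / 4)
      fun q => ?_).mono fun q hq => ?_
    · by_cases h : 0 < η q
      · rcases le_or_gt (N₁ q + 1 + 6 * q.Λ * (q.CB / q.σ)) 0 with hK | hK
        · filter_upwards [sml_pos] with t ht _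
          have := mul_nonpos_of_nonneg_of_nonpos ht.le hK
          linarith
        · filter_upwards [sml_le (a := η q / 4 / (N₁ q + 1 + 6 * q.Λ * (q.CB / q.σ)))
            (by positivity)] with t ht _
          rwa [le_div_iff₀ hK] at ht
      · exact Eventually.of_forall fun _ h' => absurd h' h
    · have e : η q.b_ε = η q := hη' q
      rw [e] at hq
      exact hq
  have h3 : EvC fun q => 101 * ((n : ℝ) * (3 * A q + 1)) + 15 ≤ q.R := by
    refine (EvC.at_R (fun q t => 101 * ((n : ℝ) * (3 * A q + 1)) + 15 ≤ t)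
      fun q => eventually_ge_atTop _).mono fun q hq => ?_
    have e : A q.b_R = A q := hA' q
    rw [e] at hq
    exact hq
  refine ((TB.ev n he h0).and ((h.and h1).and (h2.and h3))).mono ?_
  rintro q ⟨a1, ⟨⟨a2, a3⟩, a4⟩, a5, a6⟩
  exact ⟨a1, a2, a3, a4 a2, a5 a2, a6⟩

/-- The distance of two points of a cube. -/
theorem cub_dist (hn : 1 ≤ n) {x y : V n} {B : ℝ} (h : ∀ j, |x j - y j| ≤ B) :
    √(HY.sq (x - y)) ≤ n * B := by
  have hn' : (1 : ℝ) ≤ n := by exact_mod_cast hn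
  have B0 : 0 ≤ B := (abs_nonneg _).trans (h ⟨0, hn⟩)
  refine en_le_of_sq (by positivity) ?_
  have h1 : ∀ j ∈ Finset.univ, (x - y) j ^ 2 ≤ B ^ 2 := fun j _ => by
    rw [← sq_abs]
    exact pow_le_pow_left₀ (abs_nonneg _) (h j) 2
  have h2 := Finset.sum_le_sum h1
  rw [Finset.sum_const, Finset.card_univ, Fintype.card_fin, nsmul_eq_mul] at h2
  have h3 : HY.sq (x - y) = ∑ j, (x - y) j ^ 2 := rfl
  rw [h3]
  refine h2.trans ?_
  rw [mul_pow]
  exact mul_le_mul_of_nonneg_right (by nlinarith) (sq_nonneg _)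

namespace TN

variable (T : TN n A η q)
include T

theorem eN_le : eN η q ≤ η q / 2 := by
  have : min 1 (η q) ≤ η q := min_le_right _ _
  unfold eN
  linarith

/-- **On a cell which is not flat** the level is below `uf`. -/
theorem low (hn : 1 ≤ n) (h : PkOk q d) {p₀ : V n} (hF : ¬Flat q (A q) p₀) {z : VV n}
    (hz : z ∈ Zk q d (A q) p₀) : d.u q z ≤ d.uf q := by
  have P := pB h T.tb hz.1
  unfold Flat at hF
  push Not at hF
  obtain ⟨w, hw1, hw2⟩ := hF
  have hR := T.tb.th.R1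
  have hA := T.A1
  have hn' : (1 : ℝ) ≤ n := by exact_mod_cast hn
  have h1 : d.l w < d.l₀ q + 21 / 20 * q.R := by
    by_contra hc
    have := far_of_level hn h T.tb.th (not_lt.1 hc)
    linarith
  have h2 : √(HY.sq (w - mid z)) ≤ n * (3 * A q + 1) := by
    refine cub_dist hn fun j => ?_
    have a1 := abs_le.1 (hw1 j)
    have a2 : |mid z j - p₀ j| < 3 / 2 * A q := hz.2 j
    have a3 := abs_lt.1 a2
    rw [abs_le]
    constructor <;> linarith
  have hRB := T.R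
  have h3 := l_lip h T.tb.th P.gz.2.2.1 (y := w) (by linarith)
  have h4 := (abs_le.1 h3).1
  have h5 := (abs_le.1 P.p).1
  have e : d.uf q = 2 * d.l₀ q + 212 / 100 * q.R := rfl
  rw [e]
  linarith

/-- The distance of the midpoint to the centre. -/
theorem cen (hn : 1 ≤ n) (h : PkOk q d) {p₀ : V n} {z : VV n} (hz : z ∈ Zk q d (A q) p₀) :
    d.u q z / 2 - 1 / 7 - 2 * n * A q ≤ d.l p₀ := by
  have P := pB h T.tb hz.1
  have hR := T.tb.th.R1
  have hA := T.A1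
  have hn' : (1 : ℝ) ≤ n := by exact_mod_cast hn
  have h2 : √(HY.sq (p₀ - mid z)) ≤ n * (3 / 2 * A q) := by
    refine cub_dist hn fun j => ?_
    have a2 : |mid z j - p₀ j| < 3 / 2 * A q := hz.2 j
    rw [abs_sub_comm]
    exact a2.le
  have hRB := T.R
  have hnA : 0 ≤ n * A q := by positivity
  have h3 := l_lip h T.tb.th P.gz.2.2.1 (y := p₀) (by nlinarith)
  have h4 := (abs_le.1 h3).1
  have h5 := (abs_le.1 P.p).1
  nlinarith

/-- **The second part of `κ`** is harmless. -/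
theorem kb (hn : 1 ≤ n) (h : PkOk q d) {p₀ : V n} {z : VV n} (hz : z ∈ Zk q d (A q) p₀) :
    min (1 / 2) (Real.exp (-(2 * d.l p₀))) * (d.N q z + (1 + 2 * d.m q z)) ≤ η q / 4 := by
  have P := pB h T.tb hz.1
  have hc := T.cen hn h hz
  have hM := T.tb.th.M1
  have h1 : min (1 / 2) (Real.exp (-(2 * d.l p₀))) ≤
      Real.exp (2 / 7 + 4 * n * A q - d.u q z) :=
    (min_le_right _ _).trans (Real.exp_le_exp.2 (by linarith))
  have hN1 := P.nu.N1
  have hm0 : 0 ≤ d.m q z := H696.B1.m_nn h T.tb z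
  have h2 : d.N q z + (1 + 2 * d.m q z) ≤ Real.exp (1 / 2 * d.u q z) := by
    have h3 := P.nu.m2
    have h4 : (d.N q z + (1 + 2 * d.m q z)) ^ 2 ≤ Real.exp (1 / 2 * d.u q z) ^ 2 := by
      have e1 : Real.exp (1 / 2 * d.u q z) ^ 2 = d.E q z := by
        rw [← Real.exp_nat_mul]
        have : ((2 : ℕ) : ℝ) * (1 / 2 * d.u q z) = d.u q z := by push_cast; ring
        rw [this]
        rfl
      rw [e1]
      have hE : 0 < d.E q z := Real.exp_pos _
      have h5 := mul_le_mul_of_nonneg_right T.tb.e1 hE.le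
      linarith
    exact (abs_le_of_sq_le_sq' h4 (Real.exp_pos _).le).2
  have h3 : 0 ≤ min (1 / 2) (Real.exp (-(2 * d.l p₀))) :=
    le_min (by norm_num) (Real.exp_pos _).le
  have h4 : min (1 / 2) (Real.exp (-(2 * d.l p₀))) * (d.N q z + (1 + 2 * d.m q z)) ≤
      Real.exp (2 / 7 + 4 * n * A q - d.u q z) * Real.exp (1 / 2 * d.u q z) :=
    mul_le_mul h1 h2 (by linarith) (Real.exp_pos _).le
  have h5 : Real.exp (2 / 7 + 4 * n * A q - d.u q z) * Real.exp (1 / 2 * d.u q z) ≤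
      Real.exp (2 + 4 * n * A q) * Real.exp (-Real.log q.M₀) := by
    rw [← Real.exp_add, ← Real.exp_add]
    refine Real.exp_le_exp.2 ?_
    have h6 := P.nu.u0
    have h7 := Real.log_nonneg hM
    linarith
  have h6 : Real.exp (-Real.log q.M₀) = q.M₀⁻¹ := by
    rw [Real.exp_neg, Real.exp_log (by linarith)]
  rw [h6] at h5
  have h7 := T.M
  have hM0 : 0 < q.M₀ := by linarith
  have h8 : Real.exp (2 + 4 * n * A q) * q.M₀⁻¹ ≤ η q / 4 := by
    rw [← div_eq_mul_inv, div_le_iff₀ hM0]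
    linarith
  linarith

/-- **On a cell which is not flat** `N` and `m` are bounded. -/
theorem low_N (hn : 1 ≤ n) (h : PkOk q d) {p₀ : V n} (hF : ¬Flat q (A q) p₀) {z : VV n}
    (hz : z ∈ Zk q d (A q) p₀) :
    deriv d.Φ (vB q d z) ≤ N₁ q ∧ d.m q z ≤ 3 * q.Λ * (q.CB / q.σ) * q.R := by
  have P := pB h T.tb hz.1
  have hu := T.low hn h hF hz
  have hR := T.tb.th.R1
  have hσ := T.tb.th.σ0
  have hCB := T.tb.CB1
  have hΛ := T.tb.Λ1
  have e1 : d.uf q = 2 * d.l₀ q + 212 / 100 * q.R := rfl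
  have e2 : d.uth q = 2 * d.l₀ q + 22 / 10 * q.R := rfl
  refine ⟨N_le h T.tb.th (by linarith [P.v1]), ?_⟩
  have hm : d.m q z < 3 * q.Λ * d.m₁ q (d.u q z) := hz.1.2.2.2
  have hx := (d.ξ_is q).one _ hu
  have hm1 : d.m₁ q (d.u q z) ≤ q.CB / q.σ * q.R := by
    have e : d.m₁ q (d.u q z) = (Real.exp (-(26 / 100 * d.u q z)) +
      q.σ / (q.CB * q.R) * d.ξ q (d.u q z))⁻¹ := rfl
    have h1 := Real.exp_pos (-(26 / 100 * d.u q z))
    have h2 : 0 < q.σ / (q.CB * q.R) := T.tb.c0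
    rw [e, hx, mul_one]
    have h3 : (Real.exp (-(26 / 100 * d.u q z)) + q.σ / (q.CB * q.R))⁻¹ ≤
        (q.σ / (q.CB * q.R))⁻¹ := inv_anti₀ h2 (by linarith)
    refine h3.trans (le_of_eq ?_)
    have : q.CB ≠ 0 := by linarith
    have : q.R ≠ 0 := by linarith
    field_simp
  have h4 := mul_le_mul_of_nonneg_left hm1 (by linarith : 0 ≤ 3 * q.Λ)
  linarith

end TN

/-- The exponential of the model. -/
theorem e_val {p₀ : V n} {c : CD n} {a : ℝ} (f : Fro q d a p₀ c) {z : VV n}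
    (hz : z ∈ Zk q d a p₀) : (c.T.e : VV n → ℝ) z = Real.exp (vB q d z) := by
  have h1 : c.l ((1 / 2 : ℝ) • (z.1 + z.2)) = ff q d (mid z) := f.l _ hz.2
  rw [T_e, f.e, one_mul, h1]
  rfl

/-- `μ ≤ 1 + 2 m`. -/
theorem mu_up (h : PkOk q d) {e : Cst → ℝ} (T : TB n e q) {p₀ : V n} {c : CD n} {a : ℝ}
    (f : Fro q d a p₀ c) {z : VV n} (hz : z ∈ Zk q d a p₀) :
    1 ≤ (mu c.T : VV n → ℝ) z ∧ (mu c.T : VV n → ℝ) z ≤ 1 + 2 * d.m q z := by
  have P := pB h T hz.1
  have F : Fm q d p₀ c.M c.N := ⟨c.nm, f.M⟩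
  have h1 : (c.T.qq : VV n → ℝ) z ≤ 102 / 100 * HY.sq (z.1 - z.2) := by
    rw [T_qq]
    exact F.n_up h T.th T.te _
  have h2 := r2_ge h T.th T.te z
  have h3 : (mu c.T : VV n → ℝ) z = 1 + (c.T.e : VV n → ℝ) z * (c.T.qq : VV n → ℝ) z := rfl
  have h4 := e_val f hz
  have h5 := P.ev
  have h6 := Real.exp_pos (vB q d z)
  have h7 : d.m q z = d.E q z * d.r2 z := rfl
  have h8 : 0 ≤ (c.T.qq : VV n → ℝ) z := by
    rw [T_qq]
    exact Finset.sum_nonneg fun _ _ => sq_nonneg _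
  have s0 : 0 ≤ HY.sq (z.1 - z.2) := Finset.sum_nonneg fun _ _ => sq_nonneg _
  have h9 : (c.T.qq : VV n → ℝ) z ≤ 2 * d.r2 z := by linarith
  have h10 : Real.exp (vB q d z) * (c.T.qq : VV n → ℝ) z ≤ d.E q z * (2 * d.r2 z) :=
    mul_le_mul h5 h9 h8 (Real.exp_pos _).le
  rw [h3, h4, h7]
  have h11 : 0 ≤ Real.exp (vB q d z) * (c.T.qq : VV n → ℝ) z := mul_nonneg h6.le h8
  constructor <;> linarith

open Classical in
/-- **The numerical conditions hold.** -/
theorem nb_of (hn : 1 ≤ n) (T : TN n A η q) : Nb n q (A q) (η q) := by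
  intro d h p₀ c f z hz
  have P := pB h T.tb hz.1
  obtain ⟨m1, m2⟩ := mu_up h T.tb f hz
  have he := e_val f hz
  have hE : 0 < d.E q z := Real.exp_pos _
  have e0 : 0 < (c.T.e : VV n → ℝ) z := by rw [he]; exact Real.exp_pos _
  have e1 : 99 / 100 * d.E q z ≤ (c.T.e : VV n → ℝ) z := by rw [he]; exact P.ve
  have hv : (2 * ff q d (mid z)) = vB q d z := rfl
  rw [hv]
  have hN0 : q.M₀ ≤ deriv d.Φ (vB q d z) := P.n1
  have hM := T.tb.th.M1
  have hη := T.η0
  have hR := T.tb.th.R1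
  have hε := T.tb.te.ε0
  have hσ := T.tb.th.σ0
  have hCB := T.tb.CB1
  have hΛ := T.tb.Λ1
  have hm0 : 0 ≤ d.m q z := H696.B1.m_nn h T.tb z
  obtain ⟨μ, hμ⟩ : ∃ μ : ℝ, (mu c.T : VV n → ℝ) z = μ := ⟨_, rfl⟩
  obtain ⟨e, hee⟩ : ∃ e : ℝ, (c.T.e : VV n → ℝ) z = e := ⟨_, rfl⟩
  rw [hμ] at m1 m2
  rw [hee] at e0 e1
  rw [hμ, hee]
  -- the first part
  have k1 : √(μ / e) * μ ≤ eN η q := by
    have h1 : μ ^ 3 ≤ (1 + 2 * d.m q z) ^ 3 := pow_le_pow_left₀ (by linarith) m2 3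
    have h2 := P.nu.m3
    have h3 : (√(μ / e) * μ) ^ 2 ≤ eN η q ^ 2 := by
      have h4 : (√(μ / e) * μ) ^ 2 = μ ^ 3 / e := by
        rw [mul_pow, Real.sq_sqrt (by positivity)]
        ring
      rw [h4, div_le_iff₀ e0]
      have h5 := mul_le_mul_of_nonneg_left e1 (sq_nonneg (eN η q))
      have h6 : 0 ≤ eN η q ^ 2 * d.E q z := by positivity
      linarith
    exact (abs_le_of_sq_le_sq' h3 T.tb.e0.le).2
  -- the metric
  have k2 : (if Flat q (A q) p₀ then 0 else q.ε / q.R) * (deriv d.Φ (vB q d z) + μ) ≤ η q / 4 ∧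
      0 ≤ (if Flat q (A q) p₀ then 0 else q.ε / q.R) := by
    by_cases hF : Flat q (A q) p₀
    · rw [if_pos hF, zero_mul]
      exact ⟨by linarith, le_rfl⟩
    · obtain ⟨b1, b2⟩ := T.low_N hn h hF hz
      rw [if_neg hF]
      refine ⟨?_, by positivity⟩
      have h1 : deriv d.Φ (vB q d z) + μ ≤ (N₁ q + 1) * q.R + 6 * q.Λ * (q.CB / q.σ) * q.R := by
        have h2 : 0 ≤ N₁ q + 1 := by linarith
        have h3 : N₁ q + 1 ≤ (N₁ q + 1) * q.R := le_mul_of_one_le_right h2 (by linarith)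
        linarith
      have h2 := mul_le_mul_of_nonneg_left h1 (by positivity : 0 ≤ q.ε / q.R)
      have h3 : q.ε / q.R * ((N₁ q + 1) * q.R + 6 * q.Λ * (q.CB / q.σ) * q.R) =
          q.ε * (N₁ q + 1 + 6 * q.Λ * (q.CB / q.σ)) := by
        have : q.R ≠ 0 := by linarith
        field_simp
      rw [h3] at h2
      exact h2.trans T.ε
  obtain ⟨k2, k0⟩ := k2
  have k3 : min (1 / 2) (Real.exp (-(2 * d.l p₀))) * (deriv d.Φ (vB q d z) + μ) ≤ η q / 4 := by
    refine le_trans (mul_le_mul_of_nonneg_left ?_ (le_min (by norm_num) (Real.exp_pos _).le))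
      (T.kb hn h hz)
    have := P.nN
    linarith
  have k4 : 0 ≤ min (1 / 2) (Real.exp (-(2 * d.l p₀))) := le_min (by norm_num) (Real.exp_pos _).le
  have k5 : kq q d (A q) p₀ * (deriv d.Φ (vB q d z) + μ) ≤ η q / 2 := by
    unfold kq
    rw [add_mul]
    linarith
  have k6 : 0 ≤ kq q d (A q) p₀ := by
    unfold kq
    linarith
  refine ⟨?_, by linarith, ?_⟩
  · have h1 : kq q d (A q) p₀ * μ ≤ kq q d (A q) p₀ * (deriv d.Φ (vB q d z) + μ) :=
      mul_le_mul_of_nonneg_left (by linarith) k6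
    have h2 := T.eN_le
    rw [add_mul]
    linarith
  · have h1 := T.M
    have h2 : η q * q.M₀ ≤ η q * (deriv d.Φ (vB q d z) + μ) :=
      mul_le_mul_of_nonneg_left (by linarith) hη.le
    have h3 : 1 ≤ Real.exp (2 + 4 * n * A q) := Real.one_le_exp (by
      have := T.A1
      positivity)
    linarith

/-- **Numbers of the cells**, general form (`A`, `η` before `M₀`). -/
theorem nb_ev' (hn : 1 ≤ n) (hA : NB_M₀ A) (hη : NB_M₀ η)
    (h : EvC fun q => 0 < η q ∧ 1 ≤ A q) : EvC fun q => Nb n q (A q) (η q) :=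
  (TN.ev n hA hη h).mono fun _ T => nb_of hn T

/-- **Numbers of the cells** (helper724's form). -/
theorem nb_ev (hn : 1 ≤ n) (hA : NB_ηc A) (hη : NB_ηc η)
    (h : EvC fun q => 0 < η q ∧ 1 ≤ A q) : EvC fun q => Nb n q (A q) (η q) :=
  nb_ev' hn (nbM_of_ηc hA) (nbM_of_ηc hη) h

end Vale.Agent.P088.R2.H960.B1
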