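import Vale.Agent.P088.R2.H867.Z.Ho4
import Vale.Agent.P088.R2.H516.O.Cr5

/-!
# P088, stage 3, zone B1: the numbers `Nm` and the numbers of `HM` on the package

`m = E r²` with `r = √(r2 z)`, `μ = 1 + m`, `M = N + μ`, `G = √(E / μ)`; `M² ≤ E μ`, `2 μ ≤ E` in the
region `GB` (helper867) and in the region `OB` (helper696, helper724).
-/

open Set Filter
open scoped Topology ContDiff Matrix

noncomputable section

namespace Vale.Agent.P088.R2.H960.B1

open Vale.Agent.P088.LR Vale.Agent.P088.HY Vale.Agent.P088.R2.H464.Cu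
open Vale.Agent.P088.R2.H31.EP
open Vale.Agent.P088.R2.H867.Z (BC GB thB)
open Vale.Agent.P088.R2.H516.O (Nm)

variable {n : ℕ} {q : Cst} {d : Pk n} {z : VV n}

theorem m_r2 (q : Cst) (d : Pk n) (z : VV n) : d.m q z = d.E q z * d.r2 z := rfl

theorem r2_nn (hq : BC n q) (h : PkOk q d) (z : VV n) : 0 ≤ d.r2 z := by
  have h1 := (hq.nr.rb d h z).1
  have e : d.r2 z = 2 * rq (gi d.s₁) z := rfl
  rw [e]
  linarith

/-- `m = E r²`. -/
theorem m_sq (hq : BC n q) (h : PkOk q d) (z : VV n) :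
    d.m q z = d.E q z * √(d.r2 z) ^ 2 := by
  rw [Real.sq_sqrt (r2_nn hq h z)]
  rfl

/-- **The inequalities of the region** from `13/5 log N - 7/10 ≤ u` and `m ≤ 2 Λ^(3/2) m₁`. -/
theorem nums (hq : BC n q) (h : PkOk q d) (h1 : 13 / 5 * Real.log (d.N q z) - 7 / 10 ≤ d.u q z)
    (h2 : d.m q z ≤ 2 * Real.exp (3 / 2 / q.ηc) * d.m₁ q (d.u q z)) :
    1 ≤ d.N q z ∧ d.r2 z ≤ 1 / 16 ∧ d.N q z ^ 2 ≤ d.E q z / 8 ∧ 1 + d.m q z ≤ d.E q z / 8 ∧
      (d.N q z + (1 + d.m q z)) ^ 2 ≤ d.E q z * (1 + d.m q z) := by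
  have hη := hq.nr.η0
  have hη2 : 0 < 1 / q.ηc := by positivity
  have l0 := hq.lN h z
  obtain ⟨t1, t2, -⟩ := hq.th0
  have hE : d.E q z = Real.exp (d.u q z) := rfl
  have E0 : 0 < d.E q z := Real.exp_pos _
  have e32 : 3 / 2 / q.ηc = 3 / 2 * (1 / q.ηc) := by ring
  have e2 : 2 / q.ηc = 2 * (1 / q.ηc) := by ring
  have ha := abs_nonneg (Real.log q.c₀)
  rw [e2] at t2
  have hu : 60 ≤ d.u q z := by linarith
  have m0 := hq.m0 h z
  have hm1 := hq.M1le (d := d) (d.u q z)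
  have N1 : 1 ≤ d.N q z := hq.nr.M1.trans (h.N_ge _)
  have N0 : 0 < d.N q z := by linarith
  have x32 : Real.exp (-10) ≤ 1 / 32 := by
    have x4 : (4 : ℝ) ≤ Real.exp 3 := by
      have := Real.add_one_le_exp (3 : ℝ)
      linarith
    have e : Real.exp 9 = Real.exp 3 * Real.exp 3 * Real.exp 3 := by
      rw [← Real.exp_add, ← Real.exp_add]; norm_num
    have e2 : Real.exp 9 ≤ Real.exp 10 := Real.exp_le_exp.2 (by norm_num)
    have e3 : (4 : ℝ) * 4 ≤ Real.exp 3 * Real.exp 3 :=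
      mul_le_mul x4 x4 (by norm_num) (by positivity)
    have e4 : (4 : ℝ) * 4 * 4 ≤ Real.exp 3 * Real.exp 3 * Real.exp 3 :=
      mul_le_mul e3 x4 (by norm_num) (by positivity)
    rw [Real.exp_neg, inv_eq_one_div]
    exact one_div_le_one_div_of_le (by norm_num) (by linarith)
  have hs : ∀ {x : ℝ}, x ≤ d.u q z - 10 → Real.exp x ≤ d.E q z / 32 := by
    intro x hx
    have k1 : Real.exp x ≤ Real.exp (d.u q z) * Real.exp (-10) := by
      rw [← Real.exp_add]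
      exact Real.exp_le_exp.2 (by linarith)
    have k2 := mul_le_mul_of_nonneg_left x32 E0.le
    rw [hE] at k2 ⊢
    linarith
  have a1 : (1 : ℝ) ≤ d.E q z / 32 := by
    have := hs (x := 0) (by linarith)
    rwa [Real.exp_zero] at this
  have a2 : d.N q z ^ 2 ≤ d.E q z / 32 := by
    rw [← Real.exp_log (pow_pos N0 2), Real.log_pow]
    refine hs ?_
    push_cast
    linarith
  have a3 : d.m q z ≤ d.E q z / 16 := by
    have k1 : d.m q z ≤ 2 * Real.exp (3 / 2 / q.ηc + 26 / 100 * d.u q z) := by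
      rw [Real.exp_add]
      refine h2.trans ?_
      have := mul_le_mul_of_nonneg_left hm1
        (by positivity : 0 ≤ 2 * Real.exp (3 / 2 / q.ηc))
      linarith
    have k2 : Real.exp (3 / 2 / q.ηc + 26 / 100 * d.u q z) ≤ d.E q z / 32 := by
      refine hs ?_
      rw [e32]
      nlinarith
    linarith
  have a4 : d.r2 z ≤ 1 / 16 := by
    rw [m_r2] at a3
    have : d.E q z * d.r2 z ≤ d.E q z * (1 / 16) := by linarith
    exact le_of_mul_le_mul_left this E0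
  have a5 : 1 + d.m q z ≤ d.E q z / 8 := by linarith
  refine ⟨N1, a4, by linarith, a5, ?_⟩
  have b1 : (d.N q z + (1 + d.m q z)) ^ 2 ≤ 2 * d.N q z ^ 2 + 2 * (1 + d.m q z) ^ 2 := by
    nlinarith [sq_nonneg (d.N q z - (1 + d.m q z))]
  have b2 : d.E q z ≤ d.E q z * (1 + d.m q z) := le_mul_of_one_le_right E0.le (by linarith)
  have b3 : (1 + d.m q z) * (1 + d.m q z) ≤ d.E q z / 8 * (1 + d.m q z) :=
    mul_le_mul_of_nonneg_right a5 (by linarith)
  nlinarith

/-- The structure `Nm` from the inequalities. -/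
theorem nm_of (hq : BC n q) (h : PkOk q d) (h1 : 13 / 5 * Real.log (d.N q z) - 7 / 10 ≤ d.u q z)
    (h2 : d.m q z ≤ 2 * Real.exp (3 / 2 / q.ηc) * d.m₁ q (d.u q z)) :
    Nm (d.E q z) (√(d.r2 z)) (d.N q z) (d.m q z) (1 + d.m q z) (d.N q z + (1 + d.m q z))
      (√(d.gB q z)) := by
  obtain ⟨N1, r1, n2, m1, M2⟩ := nums hq h h1 h2
  have m0 := hq.m0 h z
  have E0 : 0 < d.E q z := Real.exp_pos _
  have g0 : 0 ≤ d.gB q z := by
    rw [d.gB_eq]
    exact div_nonneg E0.le (by linarith)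
  exact
    { E0 := E0
      r0 := Real.sqrt_nonneg _
      r1 := Real.sqrt_le_one.2 (by linarith)
      N0 := by linarith
      G0 := Real.sqrt_nonneg _
      hm := m_sq hq h z
      hμ := rfl
      hM := rfl
      G2 := by
        rw [Real.sq_sqrt g0, d.gB_eq]
        exact mul_div_cancel₀ _ (by linarith)
      a1 := M2
      a2 := by linarith }

/-- The two hypotheses hold in helper867's region. -/
theorem GB.a1 (hz : GB d q z) : 13 / 5 * Real.log (d.N q z) - 7 / 10 ≤ d.u q z := by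
  have := H867.Z.BC.u_gt hz
  linarith

/-- **`Nm` on the package, region `GB` of helper867.** -/
theorem nm_P (hq : BC n q) (h : PkOk q d) (hz : GB d q z) :
    Nm (d.E q z) (√(d.r2 z)) (d.N q z) (d.m q z) (1 + d.m q z) (d.N q z + (1 + d.m q z))
      (√(d.gB q z)) :=
  nm_of hq h (GB.a1 hz) (hq.m_le h hz)

/-- The first hypothesis in the region `OB`. -/
theorem OB.a1 (hq : BC n q) (h : PkOk q d) (h1 : d.N q z ^ (13 / 5 : ℝ) < 2 * d.E q z) :
    13 / 5 * Real.log (d.N q z) - 7 / 10 ≤ d.u q z := by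
  have N1 : 1 ≤ d.N q z := hq.nr.M1.trans (h.N_ge _)
  have N0 : 0 < d.N q z := by linarith
  have E0 : 0 < d.E q z := Real.exp_pos _
  have h2 := Real.log_lt_log (Real.rpow_pos_of_pos N0 _) h1
  rw [Real.log_rpow N0, Real.log_mul (by norm_num) E0.ne'] at h2
  have e : Real.log (d.E q z) = d.u q z := Real.log_exp _
  have l2 := Real.log_two_lt_d9
  rw [e] at h2
  linarith

/-- The second hypothesis in the region `OB`. -/
theorem OB.a2 (hq : BC n q) (h1 : d.m q z < 3 * q.Λ * d.m₁ q (d.u q z)) :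
    d.m q z ≤ 2 * Real.exp (3 / 2 / q.ηc) * d.m₁ q (d.u q z) := by
  have mp := hq.M1p (d := d) (d.u q z)
  have hη := hq.nr.η0
  have hη1 : q.ηc ≤ 1 := by
    have h3 := hq.aη
    have h4 := mul_le_mul_of_nonneg_right hq.cN1 hη.le
    linarith
  have e : q.Λ = Real.exp (1 / q.ηc) := rfl
  have h2 : (1 : ℝ) ≤ 1 / q.ηc := by
    rw [le_div_iff₀ hη]
    linarith
  have h3 : 3 * q.Λ ≤ 2 * Real.exp (3 / 2 / q.ηc) := by
    have e2 : Real.exp (3 / 2 / q.ηc) = Real.exp (1 / q.ηc) * Real.exp (1 / 2 * (1 / q.ηc)) := by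
      rw [← Real.exp_add]
      congr 1
      ring
    have h4 : 3 / 2 ≤ Real.exp (1 / 2 * (1 / q.ηc)) := by
      have := Real.add_one_le_exp (1 / 2 * (1 / q.ηc))
      linarith
    rw [e, e2]
    have := mul_le_mul_of_nonneg_left h4 (Real.exp_pos (1 / q.ηc)).le
    linarith
  exact h1.le.trans (mul_le_mul_of_nonneg_right h3 mp.le)

/-- **`Nm` on the package, region `OB` of helper696 / helper724** (`N^(13/5) < 2 E` and
`m < 3 Λ m₁`). -/
theorem nm_O (hq : BC n q) (h : PkOk q d) (h1 : d.N q z ^ (13 / 5 : ℝ) < 2 * d.E q z)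
    (h2 : d.m q z < 3 * q.Λ * d.m₁ q (d.u q z)) :
    Nm (d.E q z) (√(d.r2 z)) (d.N q z) (d.m q z) (1 + d.m q z) (d.N q z + (1 + d.m q z))
      (√(d.gB q z)) :=
  nm_of hq h (OB.a1 hq h h1) (OB.a2 hq h2)

section letters

/-- The letters are nonnegative everywhere. -/
theorem gB_nn (hq : BC n q) (h : PkOk q d) (z : VV n) : 0 < d.gB q z := by
  have m0 := hq.m0 h z
  have E0 : 0 < d.E q z := Real.exp_pos _
  rw [d.gB_eq]
  exact div_pos E0 (by linarith)

theorem fB_nn (hq : BC n q) (h : PkOk q d) (z : VV n) : 0 ≤ d.fB q z := by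
  have m0 := hq.m0 h z
  have E0 : 0 < d.E q z := Real.exp_pos _
  rw [d.fB_eq]
  have : 0 < 1 + d.m q z := by linarith
  positivity

theorem wB_pos (hq : BC n q) (h : PkOk q d) (z : VV n) : 0 < d.wB q z := by
  have m0 := hq.m0 h z
  have E0 : 0 < d.E q z := Real.exp_pos _
  rw [d.wB_eq]
  exact mul_pos E0 (by linarith)

/-- `g = G²`. -/
theorem g_sq (hq : BC n q) (h : PkOk q d) (z : VV n) : d.gB q z = √(d.gB q z) ^ 2 :=
  (Real.sq_sqrt (gB_nn hq h z).le).symm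

/-- `f₀ = (M G)²`. -/
theorem f_sq (hq : BC n q) (h : PkOk q d) (z : VV n) :
    d.fB q z = ((d.N q z + (1 + d.m q z)) * √(d.gB q z)) ^ 2 := by
  rw [mul_pow, Real.sq_sqrt (gB_nn hq h z).le, d.gB_eq, d.fB_eq]
  ring

theorem e_sq (q : Cst) (d : Pk n) (z : VV n) : d.eB q z = d.E q z ^ 2 := rfl

/-- `hi ≤ w`. -/
theorem gB_wB (hq : BC n q) (h : PkOk q d) (z : VV n) : d.gB q z ≤ d.wB q z := by
  have m0 := hq.m0 h z
  have E0 : 0 < d.E q z := Real.exp_pos _
  rw [d.gB_eq, d.wB_eq, div_le_iff₀ (by linarith)]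
  have h1 : 1 ≤ (1 + d.m q z) * (1 + d.m q z) := by nlinarith
  calc d.E q z = d.E q z * 1 := (mul_one _).symm
    _ ≤ d.E q z * ((1 + d.m q z) * (1 + d.m q z)) := mul_le_mul_of_nonneg_left h1 E0.le
    _ = _ := by ring

/-- `hi g ≤ e`. -/
theorem gg_eB (hq : BC n q) (h : PkOk q d) (z : VV n) : d.gB q z * d.gB q z ≤ d.eB q z := by
  have m0 := hq.m0 h z
  have E0 : 0 < d.E q z := Real.exp_pos _
  have g0 := gB_nn hq h z
  have h1 : d.gB q z ≤ d.E q z := by
    rw [d.gB_eq]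
    exact div_le_self E0.le (by linarith)
  rw [e_sq, pow_two]
  exact mul_le_mul h1 h1 g0.le E0.le

/-- `g ≤ f₀`. -/
theorem gB_fB (hq : BC n q) (h : PkOk q d) (z : VV n) : d.gB q z ≤ d.fB q z := by
  have m0 := hq.m0 h z
  have g0 := gB_nn hq h z
  have N1 : 1 ≤ d.N q z := hq.nr.M1.trans (h.N_ge _)
  rw [f_sq hq h z, mul_pow, Real.sq_sqrt g0.le]
  refine le_mul_of_one_le_left g0.le ?_
  exact one_le_pow₀ (by linarith)

/-- `h g ≤ 1`, `h e ≤ w`, `h f₀ = M²`. -/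
theorem hg_eq (hq : BC n q) (h : PkOk q d) (z : VV n) : d.hB q z * d.gB q z = 1 := by
  have m0 := hq.m0 h z
  have E0 : 0 < d.E q z := Real.exp_pos _
  have m1 : 1 + d.m q z ≠ 0 := by linarith
  rw [d.hB_eq, d.gB_eq]
  field_simp

end letters

/-- **The last hypothesis of `HO.hm`** at a point of `GB` resp. `OB`: all letters. -/
theorem w_P {C : ℝ} (hq : BC n q) (h : PkOk q d)
    (N : Nm (d.E q z) (√(d.r2 z)) (d.N q z) (d.m q z) (1 + d.m q z) (d.N q z + (1 + d.m q z))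
      (√(d.gB q z)))
    (hw : H516.O.WB d.sx d.sy (d.W q) C (d.E q z) (√(d.r2 z)) (d.N q z) z) :
    H516.O.WB d.sx d.sy (d.W q) C (d.E q z) (√(d.r2 z)) (d.N q z) z ∧
      Nm (d.E q z) (√(d.r2 z)) (d.N q z) (d.m q z) (1 + d.m q z) (d.N q z + (1 + d.m q z))
        (√(d.gB q z)) ∧ d.gB q z = √(d.gB q z) ^ 2 ∧ d.gB q z = √(d.gB q z) ^ 2 ∧
      d.eB q z = d.E q z ^ 2 ∧
      d.fB q z = ((d.N q z + (1 + d.m q z)) * √(d.gB q z)) ^ 2 :=
  ⟨hw, N, g_sq hq h z, g_sq hq h z, e_sq q d z, f_sq hq h z⟩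

end Vale.Agent.P088.R2.H960.B1
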